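import Vale.Agent.P002D97.Grp
import Vale.Agent.P002G96.Geo

/-!
# P002D97: images of disc loops, products
-/

namespace Vale.Agent.P002D

open Set Filter Topology Metric Vale.Agent.P002Z Vale.Agent.P002A
open scoped Manifold Real
open Vale.Agent.P299G40 (PN IsSmoothVariety)

variable {T S : Type} [TopologicalSpace T] [TopologicalSpace S]

theorem image_loop {E : Set T} {D : Set S} [PathConnectedSpace ↥Dᶜ] (f : C(↥Eᶜ, ↥Dᶜ))
    {x₀ : ↥Eᶜ} {p : T} {γ : FundamentalGroup ↥Eᶜ x₀} (hf : ExtendsAt f p)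
    (h : IsDiscLoop E x₀ p γ) :
    FundamentalGroup.map f x₀ γ = 1 ∨
      ∃ q ∈ D, LocalAt D (f x₀) q (FundamentalGroup.map f x₀ γ) := by
  classical
  obtain ⟨φ, y, σ, c, h1, rfl, h2, h3, rfl⟩ := h
  obtain ⟨q, hq⟩ := hf
  let ρ : ℂ → ℂ := fun u => ((max 1 ‖u‖ : ℝ) : ℂ)⁻¹ * u
  have hpos : ∀ u : ℂ, 0 < max 1 ‖u‖ := fun u => lt_max_of_lt_left one_pos
  have hρ : Continuous ρ := by
    refine Continuous.mul (Continuous.inv₀ (by fun_prop) fun u => ?_) continuous_id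
    exact Complex.ofReal_ne_zero.2 (hpos u).ne'
  have hρb : ∀ u, ρ u ∈ closedBall (0 : ℂ) 1 := fun u => by
    rw [mem_closedBall_zero_iff, norm_mul, norm_inv, Complex.norm_real,
      Real.norm_of_nonneg (hpos u).le, inv_mul_le_iff₀ (hpos u), mul_one]
    exact le_max_right _ _
  have hρ0 : ∀ u, ρ u = 0 → u = 0 := fun u hu =>
    (mul_eq_zero.1 hu).resolve_left (inv_ne_zero (Complex.ofReal_ne_zero.2 (hpos u).ne'))
  have hρ1 : ∀ t, ρ (circleMap 0 1 t) = circleMap 0 1 t := fun t => by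
    simp [ρ]
  have hφ : Continuous fun u => φ (ρ u) := h1.comp_continuous hρ hρb
  let Ψ : ↥({0}ᶜ : Set ℂ) → ↥Eᶜ := fun u => ⟨φ (ρ u), fun h => u.2 (hρ0 _ (h2 _ (hρb u) h))⟩
  have hΨ : Continuous Ψ := (hφ.comp continuous_subtype_val).subtype_mk _
  let ψ : ℂ → S := fun u => if h : u ∈ ({0}ᶜ : Set ℂ) then f (Ψ ⟨u, h⟩) else q
  have hψ1 : ∀ u : ↥({0}ᶜ : Set ℂ), ψ u = f (Ψ u) := fun u => dif_pos u.2
  have hψ0 : ψ 0 = q := dif_neg (fun h => h rfl)
  have hψ : Continuous ψ := by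
    refine continuous_iff_continuousAt.2 fun u => ?_
    by_cases hu : u = 0
    · subst hu
      rw [continuousAt_iff_punctured_nhds, hψ0, nhdsWithin, ← subtype_coe_map_comap,
        tendsto_map'_iff]
      refine Tendsto.congr (fun u => (hψ1 u).symm) (hq.comp (tendsto_comap_iff.2 ?_))
      have : Tendsto (fun u => φ (ρ u)) (𝓝 0) (𝓝 (φ 0)) := by
        have := hφ.tendsto 0
        simpa [ρ] using this
      exact this.comp tendsto_comap
    · refine ContinuousOn.continuousAt (s := {0}ᶜ) ?_ (isOpen_compl_singleton.mem_nhds hu)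
      rw [continuousOn_iff_continuous_domRestrict]
      exact (continuous_subtype_val.comp (f.continuous.comp hΨ)).congr fun u => (hψ1 u).symm
  have hne : ∀ u, ψ u ∈ D → u = 0 := fun u hu => by
    by_contra h
    rw [hψ1 ⟨u, h⟩] at hu
    exact (f _).2 hu
  have hc : ∀ t, ((c.map f.continuous) t : S) = ψ (circleMap 0 1 (2 * π * t)) := fun t => by
    rw [hψ1 ⟨_, circleMap_ne_center one_ne_zero⟩]
    refine congrArg (fun z => (f z : S)) (Subtype.ext ?_)
    change _ = φ (ρ _)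
    rw [hρ1, h3]
  have hm := map_conjLoop f σ c
  change FundamentalGroup.map f x₀ (conjLoop σ c) = 1 ∨
      ∃ q ∈ D, LocalAt D (f x₀) q (FundamentalGroup.map f x₀ (conjLoop σ c))
  rw [hm]
  by_cases hqD : q ∈ D
  · exact Or.inr ⟨q, hqD, hψ0 ▸ localAt_of (fun u _ => hψ.continuousAt) (fun u _ => hne u) _ _ hc⟩
  · left
    let Φ : C(ℂ, ↥Dᶜ) := ⟨fun u => ⟨ψ u, fun h => hqD (by rwa [hne u h, hψ0] at h)⟩,
      hψ.subtype_mk _⟩
    obtain ⟨κ, hκ, -⟩ := exists_univ (f x₀)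
    have hnull : Null (univ : Set ℂ) := fun x q _ => SimplyConnectedSpace.paths_homotopic _ _
    obtain ⟨τ, hτ⟩ := hnull.exists_pot (κ.comap Φ)
    let c₀ : Path (circleMap 0 1 0) (circleMap 0 1 0) :=
      { toFun := fun t => circleMap 0 1 (2 * π * t)
        continuous_toFun := (continuous_circleMap _ _).comp (by fun_prop)
        source' := by simp
        target' := by simpa using periodic_circleMap (0 : ℂ) 1 0 }
    have e1 : κ.v (c.map f.continuous) = 1 := by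
      have := hτ _ _ c₀ fun _ => mem_univ _
      rw [inv_mul_cancel] at this
      rw [← this]
      exact κ.congr (q := c₀.map Φ.continuous) fun t => Subtype.ext (hc t)
    rw [← hκ (conjLoop _ _), κ.toHom_conjLoop, e1, mul_one, inv_mul_cancel]

theorem curve_pc {N : ℕ} {Z : Set (PN N)} (hZ : IsSmoothVariety 1 Z) {D : Set (An Z)}
    (hD : D.Finite) : PathConnectedSpace ↥Dᶜ := by
  obtain ⟨_, _, _, _, _, _⟩ := geo _ _ hZ
  exact isPathConnected_iff_pathConnectedSpace.1 (isPathConnected_compl_finite hD)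

open Vale.Agent.P002.H252 in
theorem curve_orb {N : ℕ} {Z : Set (PN N)} (hZ : IsSmoothVariety 1 Z) {D : Set (An Z)}
    (hD : D.Finite) (x0 : ↥Dᶜ) :
    ∃ (g n : ℕ) (m : Fin n → ℕ) (δ : G0 g n → FundamentalGroup ↥Dᶜ x0), IsOrb g n m _ δ ∧
      ∀ p ∈ D, ∀ γ, LocalAt D x0 p γ →
        ∃ (i : Fin n) (h : FundamentalGroup ↥Dᶜ x0) (a : ℤ),
          γ = h * δ (Sum.inr i) ^ a * h⁻¹ := by
  obtain ⟨_, _, _, _, _, _⟩ := geo _ _ hZ
  exact curve_isOrb hD x0

theorem fibred {k : ℕ} {N : Fin k → ℕ} (Z : ∀ i, Set (PN (N i)))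
    (hZ : ∀ i, IsSmoothVariety 1 (Z i)) (D : ∀ i, Set (An (Z i))) (hD : ∀ i, (D i).Finite)
    (E : Set T) (x₀ : ↥Eᶜ) (f : ∀ i, C(↥Eᶜ, ↥(D i)ᶜ))
    (hr : ∀ i, (FundamentalGroup.map (f i) x₀).range.FiniteIndex)
    (hK : VirtSolv ↥(⨅ i, (FundamentalGroup.map (f i) x₀).ker)) :
    Q1 {γ | ∃ p ∈ E, (∀ i, ExtendsAt (f i) p) ∧ IsDiscLoop E x₀ p γ} := by
  have hp : ∀ i, PathConnectedSpace ↥(D i)ᶜ := fun i => curve_pc (hZ i) (hD i)
  choose g n m δ hδ hper using fun i => curve_orb (hZ i) (hD i) (f i x₀)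
  refine q1_of _ fun ι _ R θ r s w C hw hC =>
    dense_of_family hδ _ hr hK R θ r s w C (fun j i => ?_) hC
  obtain ⟨p, -, h1, h2⟩ := hw j
  rcases image_loop (f i) (h1 i) h2 with h | ⟨q, hq, h⟩
  · exact Or.inl h
  · exact Or.inr (hper i q hq _ h)

end Vale.Agent.P002D
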