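import Vale.Agent.P002D97.Orb
import Vale.Agent.P002B14.Over

/-!
# P002D97: locally trivial bundles over products of curves
-/

namespace Vale.Agent.P002D

open Set Vale.Agent.P002A Vale.Agent.P002B14
open Vale.Agent.P299G40 (PN IsSmoothVariety)

theorem bundle_q1 {k : ℕ} {N : Fin k → ℕ} (Z : ∀ i, Set (PN (N i)))
    (hZ : ∀ i, IsSmoothVariety 1 (Z i)) (D : ∀ i, Set (An (Z i))) (hD : ∀ i, (D i).Finite)
    {T : Type} [TopologicalSpace T] (E : Set T) (f : ∀ i, C(↥Eᶜ, ↥(D i)ᶜ))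
    (F : Type) [TopologicalSpace F] [PathConnectedSpace F] (y : F)
    (hb : ∀ b, ∃ e : Bundle.Trivialization F (ContinuousMap.pi f), b ∈ e.baseSet)
    (h1 : Group.FG (FundamentalGroup F y)) (h2 : VirtSolv (FundamentalGroup F y)) :
    PathConnectedSpace ↥Eᶜ ∧ ∀ x₀ : ↥Eᶜ, Group.FG (FundamentalGroup ↥Eᶜ x₀) ∧
      Q1 {γ | ∃ p ∈ E, (∀ i, ExtendsAt (f i) p) ∧ IsDiscLoop E x₀ p γ} := by
  choose t2 cp cn ch mf hdisc using fun i => geo (N i) (Z i) (hZ i)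
  have : ∀ i, PathConnectedSpace ↥(D i)ᶜ := fun i => curve_pc (hZ i) (hD i)
  have hX : PathConnectedSpace ↥Eᶜ := pc (ContinuousMap.pi f) hb
  refine ⟨hX, fun x₀ => ?_⟩
  obtain ⟨h3, j, h4⟩ := P002B14.over f (lsc_pi ℂ D fun i => (hD i).isClosed) hb x₀ y
  have : ∀ i, Group.FG (FundamentalGroup ↥(D i)ᶜ (f i x₀)) := fun i => by
    obtain ⟨g, n, m, δ, hδ, -⟩ := curve_orb (hZ i) (hD i) (f i x₀)
    exact Group.fg_iff.2 ⟨_, hδ.gen, finite_range _⟩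
  refine ⟨fg_ext _ h3 j fun a ha => h4 (Subgroup.mem_iInf.2 fun i => congrFun ha i),
    fibred Z hZ D hD E x₀ f (fun i => ?_) (vs_of_le j h4 h2)⟩
  have : (FundamentalGroup.map (f i) x₀).range = ⊤ := MonoidHom.range_eq_top.2 fun a => by
    obtain ⟨b, hb⟩ := h3 (Pi.mulSingle i a)
    exact ⟨b, (congrFun hb i).trans (Pi.mulSingle_eq_same
      (M := fun i => FundamentalGroup ↥(D i)ᶜ (f i x₀)) i a)⟩
  rw [this]
  infer_instance

end Vale.Agent.P002D
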