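import Vale.Agent.P002C97.Defs2

/-!
# P002: spaces of any dimension with maps to curves
-/

open Matrix Metric Topology Filter
open scoped Real

namespace Vale.Agent.P002D

open Vale.Agent.P002A Vale.Agent.P002C

variable {T S : Type} [TopologicalSpace T] [TopologicalSpace S]

/-- `γ` goes to the boundary circle of a continuous disc with centre `p` which meets `E` at most
in `p`, once around it, and back. -/
def IsDiscLoop (E : Set T) (x₀ : ↥Eᶜ) (p : T) (γ : FundamentalGroup ↥Eᶜ x₀) : Prop :=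
  ∃ (φ : ℂ → T) (y : ↥Eᶜ) (σ : Path x₀ y) (c : Path y y), ContinuousOn φ (closedBall 0 1) ∧
    φ 0 = p ∧ (∀ u ∈ closedBall (0 : ℂ) 1, φ u ∈ E → u = 0) ∧
    (∀ t, (c t : T) = φ (circleMap 0 1 (2 * π * t))) ∧
    γ = FundamentalGroup.fromPath (Path.Homotopic.Quotient.mk (σ.trans (c.trans σ.symm)))

/-- `f : T ∖ E → S ∖ D` has a limit in `S` at `p`. -/
def ExtendsAt {E : Set T} {D : Set S} (f : C(↥Eᶜ, ↥Dᶜ)) (p : T) : Prop :=
  ∃ q : S, Tendsto (fun x => (f x : S)) (comap (↑) (𝓝 p)) (𝓝 q)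

/-- `G` has a solvable subgroup of finite index. -/
def VirtSolv (G : Type) [Group G] : Prop :=
  ∃ H : Subgroup G, Group.IsSolvable H ∧ H.FiniteIndex

/-- The one-field form of Q1 for the group `G` with boundary loops taken from `B`. -/
def Q1 {G : Type} [Group G] (B : Set G) : Prop :=
  ∀ (ι : Type) [Finite ι] (R : Set (FreeGroup ι)) (θ : PresentedGroup R ≃* G) (r : ℕ),
    (∃ L : IntermediateField ℚ ℂ, FiniteDimensional ℚ L ∧
      DenseIn (intPts (OM r R) L) Set.univ) ∧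
    ∀ (s : ℕ) (γ : Fin s → G) (C : Fin s → SpecialLinearGroup (Fin r) ℂ),
      (∀ j, γ j ∈ B) → (∀ j, IsQuasiUnipotent (C j)) →
      ∃ L : IntermediateField ℚ ℂ, FiniteDimensional ℚ L ∧
        ∀ T, (∀ j, Adm (C j) (T j)) → DenseFor θ γ L T

variable {F : Type} [TopologicalSpace F] {k : ℕ} {M : Fin k → Type} [∀ i, TopologicalSpace (M i)]

/-- The boundary of `(F ∖ B) × ∏ (M i ∖ D i)` in `F × ∏ M i`. -/
def bdry (B : Set F) (D : ∀ i, Set (M i)) : Set (F × ∀ i, M i) :=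
  {z | z.1 ∈ B ∨ ∃ i, z.2 i ∈ D i}

/-- The projection to `F ∖ B`. -/
def pr₀ (B : Set F) (D : ∀ i, Set (M i)) : C(↥(bdry B D)ᶜ, ↥Bᶜ) :=
  ⟨fun z => ⟨z.1.1, fun h => z.2 (Or.inl h)⟩,
    (continuous_fst.comp continuous_subtype_val).subtype_mk _⟩

/-- The projection to `M i ∖ D i`. -/
def pr (B : Set F) (D : ∀ i, Set (M i)) (i : Fin k) : C(↥(bdry B D)ᶜ, ↥(D i)ᶜ) :=
  ⟨fun z => ⟨z.1.2 i, fun h => z.2 (Or.inr ⟨i, h⟩)⟩,
    ((continuous_apply i).comp (continuous_snd.comp continuous_subtype_val)).subtype_mk _⟩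

end Vale.Agent.P002D
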