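import Vale.Agent.P002D97.Defs
import Vale.Agent.P002A30.Fin
import Vale.Agent.P002S14.SS
import Vale.Agent.P002C97.Jor

/-!
# P002D97: groups with maps to orbicurve groups
-/

namespace Vale.Agent.P002D

open Set Matrix Vale.Agent.P002R.Orb Vale.Agent.P002.H326J Vale.Agent.P002.H2
  Vale.Agent.P002.H252

theorem VirtSolv.of_inj {G H : Type} [Group G] [Group H] (f : G →* H)
    (hf : Function.Injective f) (h : VirtSolv H) : VirtSolv G := by
  obtain ⟨A, hA, hi⟩ := h
  refine ⟨A.comap f, ?_, ⟨?_⟩⟩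
  · exact Group.isSolvable_of_isSolvable_injective (f := f.subgroupComap A) fun a b hab =>
      Subtype.ext (hf (congrArg Subtype.val hab))
  · rw [Subgroup.index_comap]
    exact (Subgroup.instFiniteIndex_subgroupOf A f.range).index_ne_zero

/-- the family with trivial action -/
def trivFamily {Γ : Type} [Group Γ] {k : ℕ} {g n : Fin k → ℕ} {m : ∀ i, Fin (n i) → ℕ}
    (ψ : ∀ i, Γ →* OrbGroup (g i) (n i) (m i)) (hr : ∀ i, (ψ i).range.FiniteIndex) :
    OrbFamily Γ :=
  letI : MulAction Γ (Fin k) :=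
    { smul := fun _ i => i, one_smul := fun _ => rfl, mul_smul := fun _ _ _ => rfl }
  { I := Fin k
    fin := inferInstance
    act := this
    g := g
    n := n
    m := m
    φ := fun i => (ψ i).comp (MulAction.stabilizer Γ i).subtype
    range := fun i => by
      have h : ((ψ i).comp (MulAction.stabilizer Γ i).subtype).range = (ψ i).range := by
        ext y
        exact ⟨fun ⟨x, hx⟩ => ⟨x.1, hx⟩, fun ⟨x, hx⟩ => ⟨⟨x, rfl⟩, hx⟩⟩
      rw [h]
      exact hr i
    conj := fun x i => by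
      have h : ∀ j : Fin k, (((ψ j).comp (MulAction.stabilizer Γ j).subtype).ker).map
          (MulAction.stabilizer Γ j).subtype = (ψ j).ker := fun j => by
        ext y
        exact ⟨fun ⟨x, hx, e⟩ => e ▸ hx, fun hy => ⟨⟨y, rfl⟩, hy, rfl⟩⟩
      rw [h, h]
      change (ψ i).ker = _
      ext y
      constructor
      · intro hy
        refine ⟨x⁻¹ * y * x, ?_, by simp [mul_assoc]⟩
        have : ψ i y = 1 := hy
        simp [MonoidHom.mem_ker, this]
      · rintro ⟨z, hz, rfl⟩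
        have : ψ i z = 1 := hz
        simp [MonoidHom.mem_ker, this]
    dist := fun i x h => absurd rfl h }

theorem dense_of_family {G : Type} [Group G] {k : ℕ} {H : Fin k → Type} [∀ i, Group (H i)]
    {g n : Fin k → ℕ} {m : ∀ i, Fin (n i) → ℕ} {δ : ∀ i, G0 (g i) (n i) → H i}
    (hδ : ∀ i, IsOrb (g i) (n i) (m i) (H i) (δ i)) (ψ : ∀ i, G →* H i)
    (hr : ∀ i, (ψ i).range.FiniteIndex) (hK : VirtSolv ↥(⨅ i, (ψ i).ker))
    {ι : Type} [Finite ι] (R : Set (FreeGroup ι))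
    (θ : PresentedGroup R ≃* G) (r s : ℕ) (w : Fin s → FreeGroup ι)
    (C : Fin s → SpecialLinearGroup (Fin r) ℂ)
    (hw : ∀ j i, ψ i (θ (PresentedGroup.mk R (w j))) = 1 ∨ ∃ (l : Fin (n i)) (h : H i) (a : ℤ),
      ψ i (θ (PresentedGroup.mk R (w j))) = h * δ i (Sum.inr l) ^ a * h⁻¹)
    (hC : ∀ j z, IsEigenvalue (C j) z → ∃ n : ℕ, 0 < n ∧ z ^ n = 1) :
    ∃ L : IntermediateField ℚ ℂ, FiniteDimensional ℚ L ∧ IsDenseRep L (YW R w C) := by
  choose θo hθo using fun i => (hδ i).equiv (stdGen_isOrb (g i) (n i) (m i))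
  let χ : ∀ i, PresentedGroup R →* OrbGroup (g i) (n i) (m i) := fun i =>
    (θo i).toMonoidHom.comp ((ψ i).comp θ.toMonoidHom)
  have hχ : ∀ i, (χ i).range.FiniteIndex := fun i => by
    have h : (χ i).range = (ψ i).range.map (θo i).toMonoidHom := by
      ext y
      constructor
      · rintro ⟨x, rfl⟩
        exact ⟨_, ⟨θ x, rfl⟩, rfl⟩
      · rintro ⟨_, ⟨x, rfl⟩, rfl⟩
        obtain ⟨x, rfl⟩ := θ.surjective x
        exact ⟨x, rfl⟩
    rw [h]
    refine ⟨?_⟩
    rw [Subgroup.index_map_of_bijective (θo i).bijective]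
    exact (hr i).index_ne_zero
  let O := trivFamily χ hχ
  have hper : ∀ j, O.IsPeripheral (PresentedGroup.mk R (w j)) := by
    rintro j (i : Fin k) z ⟨x, a, hz⟩
    have h0 : O.φ i z = θo i (ψ i (θ x) * ψ i (θ (PresentedGroup.mk R (w j))) ^ a *
        (ψ i (θ x))⁻¹) := by
      change θo i (ψ i (θ (z : PresentedGroup R))) = _
      congr 1
      rw [hz]
      simp only [map_mul, map_inv, map_zpow]
    rcases hw j i with h | ⟨l, h, b, hb⟩
    · refine Or.inl (h0.trans ?_)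
      rw [h, _root_.one_zpow, mul_one, mul_inv_cancel]
      exact map_one _
    · have h1 : θo i (δ i (Sum.inr l)) = OrbGroup.loop l := hθo i (Sum.inr l)
      have h3 : IsConj ((OrbGroup.loop l : OrbGroup (g i) (n i) (m i)) ^ (b * a))
          (θo i (ψ i (θ x) * ψ i (θ (PresentedGroup.mk R (w j))) ^ a * (ψ i (θ x))⁻¹)) := by
        have h2 : ψ i (θ x) * ψ i (θ (PresentedGroup.mk R (w j))) ^ a * (ψ i (θ x))⁻¹ =
            ψ i (θ x) * h * δ i (Sum.inr l) ^ (b * a) * (ψ i (θ x) * h)⁻¹ := by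
          rw [hb, conj_zpow, ← _root_.zpow_mul]
          group
        refine isConj_iff.2 ⟨θo i (ψ i (θ x) * h), ?_⟩
        rw [h2, map_mul (θo i) _ _⁻¹, map_mul (θo i) (ψ i (θ x) * h), map_inv, map_zpow, h1]
      exact Or.inr ⟨l, b * a, h0 ▸ h3⟩
  obtain ⟨L, hL, h⟩ := main_T3 O r w C hC hper ⊥ inferInstance bot_le (fun _ => (r : ℂ))
    fun _ => isIntegral_natCast r
  rw [yrel_bot, yker_eq] at h
  · exact ⟨L, hL, h⟩
  · have hm : ∀ x ∈ O.K, θ.toMonoidHom x ∈ ⨅ i, (ψ i).ker := fun x hx => by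
      refine Subgroup.mem_iInf.2 fun i => ?_
      obtain ⟨y, hy, rfl⟩ := Subgroup.mem_iInf.1 hx i
      exact (θo i).injective (hy.trans (map_one _).symm)
    exact VirtSolv.of_inj ((θ.toMonoidHom.comp O.K.subtype).codRestrict _ fun x => hm x x.2)
      (fun a b hab => Subtype.ext (θ.injective (congrArg Subtype.val hab))) hK

open Vale.Agent.P002A Vale.Agent.P002C in
theorem q1_of {G : Type} [Group G] (B : Set G)
    (h : ∀ (ι : Type) [Finite ι] (R : Set (FreeGroup ι)) (θ : PresentedGroup R ≃* G) (r s : ℕ)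
      (w : Fin s → FreeGroup ι) (C : Fin s → SpecialLinearGroup (Fin r) ℂ),
      (∀ j, θ (PresentedGroup.mk R (w j)) ∈ B) →
      (∀ j z, IsEigenvalue (C j) z → ∃ n : ℕ, 0 < n ∧ z ^ n = 1) →
      ∃ L : IntermediateField ℚ ℂ, FiniteDimensional ℚ L ∧ IsDenseRep L (YW R w C)) : Q1 B := by
  intro ι _ R θ r
  have key : ∀ (s : ℕ) (γ : Fin s → G) (C : Fin s → SpecialLinearGroup (Fin r) ℂ),
      (∀ j, γ j ∈ B) → (∀ j, P002A.IsQuasiUnipotent (C j)) →
      ∃ L : IntermediateField ℚ ℂ, FiniteDimensional ℚ L ∧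
        repLocus θ γ C ⊆ closure (intPts _ L ∩ repLocus θ γ C) := by
    intro s γ C hγ hC
    choose w hw using fun j => (θ.surjective.comp (PresentedGroup.mk_surjective R)) (γ j)
    obtain rfl : γ = fun j => θ (PresentedGroup.mk R (w j)) := funext fun j => (hw j).symm
    obtain ⟨L, hL, h⟩ := h ι R θ r s w C hγ
      fun j z hz => hC j z (mem_spectrum_iff_isRoot_charpoly.2 hz)
    exact ⟨L, hL, rep_dense θ w C h⟩
  refine ⟨?_, fun s γ C hγ hC => ?_⟩
  · obtain ⟨L, hL, h⟩ := key 0 Fin.elim0 Fin.elim0 (fun j => j.elim0) fun j => j.elim0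
    exact ⟨L, hL, denseIn_image _ h (mapsTo_univ _ _) (univ_subset θ ss)⟩
  · obtain ⟨L, hL, h⟩ := one_field θ γ (fun A hA => by
      obtain ⟨L, hL, h⟩ := key s γ A hγ hA
      exact ⟨L, hL, denseIn_image (RingHom.id _) h (fun _ hx => hx)
        fun x hx => subset_closure ⟨x, hx, rfl⟩⟩) C hC
    exact ⟨L, hL, fun T hT =>
      ⟨(h T hT).1, (h T hT).2, fun hc => imageIn_eq θ γ T hc fun j => (hT j).2⟩⟩

end Vale.Agent.P002D
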