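import Vale.Agent.P002D97.Prod

/-!
# P002D97: orbifold bases, and the clauses for products
-/

namespace Vale.Agent.P002D

open Set Filter Topology Metric Vale.Agent.P002Z Vale.Agent.P002A Vale.Agent.P002.H252
open Vale.Agent.P299G40 (PN IsSmoothVariety)

theorem isOrb_quot {g n : ℕ} {m : Fin n → ℕ} {H : Type} [Group H] {δ : G0 g n → H}
    (hδ : IsOrb g n m H δ) (P : Set H)
    (hP : ∀ x ∈ P, ∃ (i : Fin n) (h : H) (a : ℤ), x = h * δ (Sum.inr i) ^ a * h⁻¹) :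
    IsOrb g n (fun j => orderOf (δ (Sum.inr j) : H ⧸ Subgroup.normalClosure P))
      (H ⧸ Subgroup.normalClosure P) fun s => (δ s : H ⧸ Subgroup.normalClosure P) := by
  let π := QuotientGroup.mk' (Subgroup.normalClosure P)
  refine ⟨?_, fun j => pow_orderOf_eq_one _, ?_, fun Q _ η h1 h2 => ?_⟩
  · have := map_evalB π δ (word0 g n)
    rw [hδ.rel, map_one] at this
    exact this.symm
  · have := MonoidHom.map_closure π (range δ)
    rw [hδ.gen, ← MonoidHom.range_eq_map, MonoidHom.range_eq_top.2 (QuotientGroup.mk'_surjective _),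
      ← range_comp] at this
    exact this.symm
  · have h3 : ∀ j (a : ℤ), π (δ (Sum.inr j)) ^ a = 1 → η (Sum.inr j) ^ a = 1 := by
      intro j a ha
      obtain ⟨b, rfl⟩ := orderOf_dvd_iff_zpow_eq_one.2 ha
      rw [zpow_mul, zpow_natCast]
      exact (congrArg (· ^ b) (h2 j)).trans (one_zpow b)
    obtain ⟨Φ, hΦ⟩ := hδ.univ Q η h1 fun j => by
      rw [← zpow_natCast]
      refine h3 j _ ?_
      rw [zpow_natCast, ← map_pow, hδ.tors, map_one]
    have hk : Subgroup.normalClosure P ≤ Φ.ker := Subgroup.normalClosure_le_normal fun x hx => by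
      obtain ⟨i, h, a, rfl⟩ := hP x hx
      have h4 : π (h * δ (Sum.inr i) ^ a * h⁻¹) = 1 :=
        (QuotientGroup.eq_one_iff _).2 (Subgroup.subset_normalClosure hx)
      rw [map_mul, map_mul, map_inv, map_zpow, conj_eq_one_iff] at h4
      change Φ _ = 1
      rw [map_mul, map_mul, map_inv, map_zpow, hΦ, h3 i a h4, mul_one, mul_inv_cancel]
    exact ⟨QuotientGroup.lift _ Φ hk, hΦ⟩

variable {k : ℕ} {N : Fin k → ℕ} (Z : ∀ i, Set (PN (N i)))
  (hZ : ∀ i, IsSmoothVariety 1 (Z i)) (D : ∀ i, Set (An (Z i))) (hD : ∀ i, (D i).Finite)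

include hZ hD

theorem fibredOrb {T : Type} [TopologicalSpace T] (E E' : Set T) (h : E'ᶜ ⊆ Eᶜ) (x₀ : ↥E'ᶜ)
    (f : ∀ i, C(↥E'ᶜ, ↥(D i)ᶜ)) (P : ∀ i, Set (FundamentalGroup ↥(D i)ᶜ (f i x₀)))
    (ψ : ∀ i, FundamentalGroup ↥Eᶜ (ContinuousMap.inclusion h x₀) →*
      FundamentalGroup ↥(D i)ᶜ (f i x₀) ⧸ Subgroup.normalClosure (P i))
    (hP : ∀ i, ∀ a ∈ P i, ∃ p ∈ D i, ∃ γ, ∃ m : ℕ, IsMeridian (D i) (f i x₀) p γ ∧ a = γ ^ m)
    (hψ : ∀ i γ, ψ i (FundamentalGroup.map (ContinuousMap.inclusion h) x₀ γ) =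
      ↑(FundamentalGroup.map (f i) x₀ γ))
    (hr : ∀ i, (ψ i).range.FiniteIndex) (hK : VirtSolv ↥(⨅ i, (ψ i).ker)) :
    Q1 (FundamentalGroup.map (ContinuousMap.inclusion h) x₀ ''
      {γ | ∃ p ∈ E, (∀ i, ExtendsAt (f i) p) ∧ IsDiscLoop E' x₀ p γ}) := by
  have hp : ∀ i, PathConnectedSpace ↥(D i)ᶜ := fun i => curve_pc (hZ i) (hD i)
  choose g n m δ hδ hper using fun i => curve_orb (hZ i) (hD i) (f i x₀)
  have hδ' := fun i => isOrb_quot (hδ i) (P i) fun x hx => by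
    obtain ⟨p, hp, γ, b, hγ, rfl⟩ := hP i x hx
    obtain ⟨l, y, a, rfl⟩ := hper i p hp γ hγ.localAt
    exact ⟨l, y, a * b, by rw [conj_pow, zpow_mul, zpow_natCast]⟩
  refine q1_of _ fun ι _ R θ r s w C hw hC =>
    dense_of_family hδ' ψ hr hK R θ r s w C (fun j i => ?_) hC
  obtain ⟨γ, ⟨p, -, h1, h2⟩, h3⟩ := hw j
  rw [← h3, hψ]
  rcases image_loop (f i) (h1 i) h2 with h | ⟨q, hq, h⟩
  · exact Or.inl (by rw [h]; rfl)
  · obtain ⟨l, y, a, hy⟩ := hper i q hq _ h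
    exact Or.inr ⟨l, y, a, by rw [hy]; rfl⟩

theorem prod_q1 {F : Type} [TopologicalSpace F] (B : Set F) (x₀ : ↥(bdry B D)ᶜ)
    (h : VirtSolv (FundamentalGroup ↥Bᶜ (pr₀ B D x₀))) :
    Q1 {γ | ∃ p ∈ bdry B D, IsDiscLoop (bdry B D) x₀ p γ} := by
  have := fibred Z hZ D hD (bdry B D) x₀ (pr B D) (pr_range B D x₀) (pr_ker B D x₀ h)
  simpa only [pr_extends, implies_true, true_and] using this

theorem prod_fg {F : Type} [TopologicalSpace F] (B : Set F) (x₀ : ↥(bdry B D)ᶜ)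
    (h : Group.FG (FundamentalGroup ↥Bᶜ (pr₀ B D x₀))) :
    Group.FG (FundamentalGroup ↥(bdry B D)ᶜ x₀) := by
  have : ∀ i, Group.FG (FundamentalGroup ↥(D i)ᶜ (pr B D i x₀)) := fun i => by
    obtain ⟨g, n, m, δ, hδ, -⟩ := curve_orb (hZ i) (hD i) (pr B D i x₀)
    exact Group.fg_iff.2 ⟨_, hδ.gen, finite_range _⟩
  have e := MulEquiv.ofBijective _ (pr_bij B D x₀)
  exact Group.fg_of_surjective (f := e.symm.toMonoidHom) e.symm.surjective

theorem prod_pc {F : Type} [TopologicalSpace F] (B : Set F) [PathConnectedSpace ↥Bᶜ] :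
    PathConnectedSpace ↥(bdry B D)ᶜ := by
  have : ∀ i, PathConnectedSpace ↥(D i)ᶜ := fun i => curve_pc (hZ i) (hD i)
  exact Function.Surjective.pathConnectedSpace (f := glue B D)
    (fun z => ⟨(pr₀ B D z, fun i => pr B D i z), rfl⟩) (glue B D).continuous

theorem prod_mer {F : Type} [TopologicalSpace F] (B : Set F) (x₀ : ↥(bdry B D)ᶜ) (i : Fin k)
    (p : An (Z i)) :
    ∃ γ, IsDiscLoop (bdry B D) x₀ (x₀.1.1, Function.update x₀.1.2 i p) γ ∧
      IsMeridian (D i) (pr B D i x₀) p (FundamentalGroup.map (pr B D i) x₀ γ) := by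
  have := curve_pc (hZ i) (hD i)
  obtain ⟨_, _, _, _, _, hdisc⟩ := geo _ _ (hZ i)
  obtain ⟨γ, hγ⟩ := P002A.exists_meridian (hD i) (pr B D i x₀) p (hdisc p)
  obtain ⟨γ', h1, rfl⟩ := lift_loop B D x₀ i (IsMeridian.discLoop hγ)
  exact ⟨γ', h1, hγ⟩

omit hZ hD in
theorem sub_pi {X : Type} [TopologicalSpace X] [Subsingleton X] (x : X) :
    Subsingleton (FundamentalGroup X x) :=
  ⟨fun a b => by
    obtain ⟨a, rfl⟩ := Quotient.exists_rep a
    obtain ⟨b, rfl⟩ := Quotient.exists_rep b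
    exact congrArg Path.Homotopic.Quotient.mk
      (Path.ext (funext fun _ => Subsingleton.elim _ _))⟩

end Vale.Agent.P002D
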