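import Vale.Agent.P002D97.Top

/-!
# P002D97: products
-/

namespace Vale.Agent.P002D

open Set Filter Topology Metric Vale.Agent.P002Z Vale.Agent.P002A
open scoped Manifold Real
open Vale.Agent.P299G40 (PN IsSmoothVariety)

variable {F : Type} [TopologicalSpace F] {k : ℕ} {M : Fin k → Type} [∀ i, TopologicalSpace (M i)]
  (B : Set F) (D : ∀ i, Set (M i))

/-- the inverse of the projections -/
def glue : C(↥Bᶜ × ∀ i, ↥(D i)ᶜ, ↥(bdry B D)ᶜ) :=
  ⟨fun y => ⟨(y.1.1, fun i => (y.2 i).1), fun h => h.elim y.1.2 fun ⟨i, h⟩ => (y.2 i).2 h⟩,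
    Continuous.subtype_mk (by fun_prop) _⟩

variable (x₀ : ↥(bdry B D)ᶜ)

theorem pr_surj (a : FundamentalGroup ↥Bᶜ (pr₀ B D x₀))
    (b : ∀ i, FundamentalGroup ↥(D i)ᶜ (pr B D i x₀)) :
    ∃ γ, FundamentalGroup.map (pr₀ B D) x₀ γ = a ∧
      ∀ i, FundamentalGroup.map (pr B D i) x₀ γ = b i := by
  obtain ⟨a, rfl⟩ := Quotient.exists_rep a
  choose c hc using fun i => Quotient.exists_rep (b i)
  obtain rfl : b = _ := funext fun i => (hc i).symm
  exact ⟨Path.Homotopic.Quotient.mk ((a.prod (Path.pi c)).map (glue B D).continuous), rfl,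
    fun i => rfl⟩

theorem pr_inj (γ : FundamentalGroup ↥(bdry B D)ᶜ x₀)
    (h0 : FundamentalGroup.map (pr₀ B D) x₀ γ = 1)
    (h : ∀ i, FundamentalGroup.map (pr B D i) x₀ γ = 1) : γ = 1 := by
  obtain ⟨c, rfl⟩ := Quotient.exists_rep γ
  obtain ⟨H0⟩ : (c.map (pr₀ B D).continuous).Homotopic (Path.refl _) := Quotient.exact h0
  have H : ∀ i, (c.map (pr B D i).continuous).Homotopy (Path.refl _) := fun i =>
    (show (c.map (pr B D i).continuous).Homotopic (Path.refl _) from Quotient.exact (h i)).some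
  have H1 := Path.Homotopic.map
    ⟨Path.Homotopic.prodHomotopy H0 (Path.Homotopic.piHomotopy _ _ H)⟩ (glue B D)
  exact Quotient.sound H1

theorem pr_bij : Function.Bijective ((FundamentalGroup.map (pr₀ B D) x₀).prod
    (MonoidHom.pi fun i => FundamentalGroup.map (pr B D i) x₀)) := by
  refine ⟨(injective_iff_map_eq_one _).2 fun γ h => pr_inj B D x₀ γ (congrArg Prod.fst h)
    fun i => congrFun (congrArg Prod.snd h) i, fun ⟨a, b⟩ => ?_⟩
  obtain ⟨γ, h0, h⟩ := pr_surj B D x₀ a b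
  exact ⟨γ, Prod.ext h0 (funext h)⟩

theorem pr_range (i : Fin k) : (FundamentalGroup.map (pr B D i) x₀).range.FiniteIndex := by
  classical
  have : (FundamentalGroup.map (pr B D i) x₀).range = ⊤ := by
    refine MonoidHom.range_eq_top.2 fun b => ?_
    obtain ⟨γ, -, h⟩ := pr_surj B D x₀ 1 (Function.update 1 i b)
    exact ⟨γ, by rw [h, Function.update_self]⟩
  rw [this]
  infer_instance

theorem pr_ker (h : VirtSolv (FundamentalGroup ↥Bᶜ (pr₀ B D x₀))) :
    VirtSolv ↥(⨅ i, (FundamentalGroup.map (pr B D i) x₀).ker) :=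
  VirtSolv.of_inj ((FundamentalGroup.map (pr₀ B D) x₀).comp (Subgroup.subtype _))
    ((injective_iff_map_eq_one _).2 fun γ hγ => Subtype.ext
      (pr_inj B D x₀ γ hγ fun i => Subgroup.mem_iInf.1 γ.2 i)) h

theorem pr_extends (i : Fin k) (p : F × ∀ i, M i) : ExtendsAt (pr B D i) p :=
  ⟨p.2 i, (((continuous_apply i).comp continuous_snd).tendsto p).comp tendsto_comap⟩

theorem IsMeridian.discLoop {N : ℕ} {W : Set (PN N)} {E : Set (An W)} {x : ↥Eᶜ} {p : An W}
    {γ : FundamentalGroup ↥Eᶜ x} (h : IsMeridian E x p γ) : IsDiscLoop E x p γ := by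
  obtain ⟨φ, y, σ, c, h1, h2, h3, h4, h5⟩ := h
  exact ⟨φ, y, σ, c, fun u hu => (h1.continuousAt u hu).continuousWithinAt, h2, h3, h4, h5⟩

theorem lift_loop (i : Fin k) {p : M i} {γ : FundamentalGroup ↥(D i)ᶜ (pr B D i x₀)}
    (h : IsDiscLoop (D i) (pr B D i x₀) p γ) :
    ∃ γ', IsDiscLoop (bdry B D) x₀ (x₀.1.1, Function.update x₀.1.2 i p) γ' ∧
      FundamentalGroup.map (pr B D i) x₀ γ' = γ := by
  obtain ⟨φ, y, σ, c, h1, rfl, h2, h3, rfl⟩ := h
  have hm : ∀ z : M i, (x₀.1.1, Function.update x₀.1.2 i z) ∈ bdry B D → z ∈ D i := by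
    rintro z (h | ⟨j, h⟩)
    · exact (x₀.2 (Or.inl h)).elim
    · by_cases hj : j = i
      · subst hj
        simpa using h
      · simp only [Function.update_of_ne hj] at h
        exact (x₀.2 (Or.inr ⟨j, h⟩)).elim
  have hu : Continuous fun z : M i => (x₀.1.1, Function.update x₀.1.2 i z) :=
    continuous_const.prodMk (continuous_const.update i continuous_id)
  let e : C(↥(D i)ᶜ, ↥(bdry B D)ᶜ) := ⟨fun z => ⟨(x₀.1.1, Function.update x₀.1.2 i z.1),
    fun h => z.2 (hm _ h)⟩, (hu.comp continuous_subtype_val).subtype_mk _⟩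
  have he : x₀ = e (pr B D i x₀) :=
    Subtype.ext (Prod.ext rfl (Function.update_eq_self i x₀.1.2).symm)
  have hp : ∀ z, pr B D i (e z) = z := fun z => Subtype.ext (Function.update_self ..)
  refine ⟨_, ⟨fun u => (x₀.1.1, Function.update x₀.1.2 i (φ u)), e y,
    (σ.map e.continuous).cast he rfl, c.map e.continuous, hu.comp_continuousOn h1, rfl,
    fun u hu h => h2 u hu (hm _ h), fun t => congrArg (fun z => (x₀.1.1, Function.update x₀.1.2 i z)) (h3 t), rfl⟩, ?_⟩
  refine congrArg Path.Homotopic.Quotient.mk (Path.ext (funext fun t => ?_))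
  simp only [Path.map_coe, Function.comp_apply, Path.trans_apply, Path.symm_apply, Path.cast_coe]
  split_ifs <;> exact hp _

end Vale.Agent.P002D
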